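import Vale.Agent.Lib.P368.D3.Full

namespace Vale.Agent.Results.P368.A0_depth3_full

open Vale.Agent.Lib.P368

/-- For every fixed advantage `ε > 0` there is `n0` such that for every `n ≥ n0`, every finite set
of ancillas (of any size) and every output qubit, no circuit of entangling depth at most three on
`n` inputs and these ancillas computes parity with worst-case advantage `ε`. -/
theorem result (ε : ℝ) (hε : 0 < ε) :
    ∃ n0 : ℕ, ∀ n ≥ n0, ∀ (A : Type) [Fintype A] [DecidableEq A]
      (C : Circuit3 (Fin n ⊕ A)) (q : Fin n ⊕ A), ¬ C.ComputesParity q ε :=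
  depth3_full ε hε

end Vale.Agent.Results.P368.A0_depth3_full
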