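import Vale.Agent.Lib.P368.Main

namespace Vale.Agent.Results.P368.A_depth3_ancillas

open Vale.Agent.Lib.P368

/-- For every fixed advantage `ε > 0` there are `K, n0` such that for `n ≥ n0` and every number `a`
of ancillas with `K * a * (log₂ n) ^ 2 ≤ n ^ 2`, no circuit of entangling depth at most three on
`n` inputs and `a` ancillas computes parity with worst-case advantage `ε`, for any output qubit. -/
theorem result (ε : ℝ) (hε : 0 < ε) :
    ∃ K n0 : ℕ, ∀ n ≥ n0, ∀ a : ℕ, K * a * (Nat.log 2 n) ^ 2 ≤ n ^ 2 →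
      ∀ (C : Circuit3 (Fin n ⊕ Fin a)) (q : Fin n ⊕ Fin a), ¬ C.ComputesParity q ε :=
  depth3_ancillas ε hε

end Vale.Agent.Results.P368.A_depth3_ancillas
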