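import Vale.Agent.Lib.P368.Structure

namespace Vale.Agent.Results.P368.C_structure

open Vale.Agent.Lib.P368

/-- For every fixed advantage `ε > 0` there are `K, n0` such that for `n ≥ n0`, any finite set of
ancillas (of any size), any circuit of entangling depth at most three computing parity with
worst-case advantage `ε` at an output qubit `q`, and any `w` with `K * w * log₂ n ≤ n`:
the output qubit lies in a gate of the last Toffoli layer with more than `w` qubits, and more than
`n / (K log₂ n)` gates of the first Toffoli layer touch an input qubit and have more than `w`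
qubits. -/
theorem result (ε : ℝ) (hε : 0 < ε) :
    ∃ K n0 : ℕ, ∀ n ≥ n0, ∀ (A : Type) [Fintype A] [DecidableEq A]
      (C : Circuit3 (Fin n ⊕ A)) (q : Fin n ⊕ A), C.ComputesParity q ε →
      ∀ w : ℕ, K * w * Nat.log 2 n ≤ n →
        (∃ g ∈ C.T3, q ∈ g.supp ∧ w < g.supp.card) ∧
        n < K * Nat.log 2 n *
          (C.T1.filter fun g => decide ((∃ i : Fin n, (Sum.inl i : Fin n ⊕ A) ∈ g.supp) ∧
            w < g.supp.card)).length :=
  structure_theorem ε hε

end Vale.Agent.Results.P368.C_structure
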