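import Vale.Agent.Lib.P368.Correlation

namespace Vale.Agent.Results.P368.D_correlation

open Vale.Agent.Lib.P368

/-- For every number `n` of inputs, every finite set of ancillas, every unit vector `ψ` on the
ancillas, every output qubit `q` and every circuit `L3 T3 L2 T2 L1 T1 L0` whose first Toffoli layer
`T1` touches no input qubit: the parity correlation of the circuit started on `|x⟩ ⊗ ψ` is at most
`6 * 2 ^ (-n / 10)` in absolute value. With `T1` empty and `ψ = |0…0⟩` this is the case of
entangling depth two. -/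
theorem result {n : ℕ} {A : Type} [Fintype A] [DecidableEq A] (C : Circuit3 (Fin n ⊕ A))
    (ψ : (A → Bool) → ℂ) (hψ : ∑ a, ‖ψ a‖ ^ 2 = 1) (q : Fin n ⊕ A)
    (hC : ∀ g ∈ C.T1, ∀ i : Fin n, (Sum.inl i : Fin n ⊕ A) ∉ g.supp) :
    |C.correlationOn ψ q| ≤ 6 * (1 / 2 : ℝ) ^ ((n : ℝ) / 10) :=
  correlation_bound C ψ hψ q hC

end Vale.Agent.Results.P368.D_correlation
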